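import Mathlib
import Vale.Agent.Lib.P314.Formula
import Vale.Agent.Lib.P314.Restrict

/-!
P314: black-box identity testing of noncommutative formulas in `n` variables and in two
variables are reducible to each other.

(1) If a list `H` of `N` pairs `(U_0, U_1)` of square matrices is a hitting set for the
noncommutative formulas of size at most `(2 n + 1) s` in the two variables `x_0, x_1`, then the
list of the `N` tuples `(U_0 ^ i * U_1)_{i < n}` (same length, same matrix sizes) is a hitting
set for the noncommutative formulas of size at most `s` in `n` variables.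

(2) Conversely, if `n ≥ 2` and a list `H` of `N` tuples `(T_0, …, T_{n-1})` of square matrices
is a hitting set for the formulas of size at most `s` in `n` variables, then the list of the `N`
pairs `(T_0, T_1)` (same length, same matrix sizes) is a hitting set for the formulas of size at
most `s` in two variables.
-/

namespace Vale.Agent.Results.P314.TwoVariablesEquivalence

open Vale.Agent.Lib.P314

theorem result (F : Type) [Field F] :
    (∀ (n s N : ℕ) (H : Fin N → (d : ℕ) × (Fin 2 → Matrix (Fin d) (Fin d) F)),
      IsHittingSet F 2 ((2 * n + 1) * s) N H →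
      IsHittingSet F n s N
        (fun k => ⟨(H k).1, fun i : Fin n => (H k).2 0 ^ (i : ℕ) * (H k).2 1⟩)) ∧
    (∀ (n s N : ℕ) (hn : 2 ≤ n) (H : Fin N → (d : ℕ) × (Fin n → Matrix (Fin d) (Fin d) F)),
      IsHittingSet F n s N H →
      IsHittingSet F 2 s N
        (fun k => ⟨(H k).1, fun i : Fin 2 => (H k).2 (Fin.castLE hn i)⟩)) := by
  refine ⟨?_, fun n s N hn H hH => restrict_hitting F n s N hn H hH⟩
  intro n s N H hH φ hsize hne
  have h1 : (subst φ).size ≤ (2 * n + 1) * s :=
    (size_subst φ).trans (Nat.mul_le_mul_left _ hsize)
  have h2 : (subst φ).poly ≠ 0 := by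
    rw [poly_subst]
    intro h0
    apply hne
    apply sigma_injective F n
    rw [h0, map_zero]
  obtain ⟨k, hk⟩ := hH (subst φ) h1 h2
  refine ⟨k, ?_⟩
  rw [poly_subst, lift_sigma] at hk
  exact hk

end Vale.Agent.Results.P314.TwoVariablesEquivalence
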